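import Crest.Agent.N250.Cj.Ch
import Crest.Agent.N250.Act.Lag

/-!
# Row 250 (helper82): complex polar graphs over a complex orthonormal frame
-/

set_option autoImplicit false
open Set Filter Topology
open scoped ContDiff

noncomputable section

namespace Crest.Agent.N250.Cj

open Crest.Agent.N222 Gc Po WS

/-! ### frames -/

/-- complex orthonormal frames -/
def On (f : Fin 3 → Fin 3 → ℂ) : Prop := ∀ i j, dot (f i) (f j) = if i = j then 1 else 0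

/-- the determinant of a frame -/
def dl (f : Fin 3 → Fin 3 → ℂ) : ℂ := dot (f 0) (cr (f 1) (f 2))

/-- `a f₀ + b ω(θ) + c ω'(θ)` -/
def frC (f : Fin 3 → Fin 3 → ℂ) (θ : ℝ) (a b c : ℂ) (i : Fin 3) : ℂ :=
  a * f 0 i + (b * Real.cos θ - c * Real.sin θ) * f 1 i + (b * Real.sin θ + c * Real.cos θ) * f 2 i

/-- the frame of a real rotation -/
def fQ (Q : N222.E (Fin 3) ≃ₗᵢ[ℝ] N222.E (Fin 3)) (i : Fin 3) : Fin 3 → ℂ := cx (Q (N250.ee i))

variable {f : Fin 3 → Fin 3 → ℂ} {θ : ℝ}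

theorem on_fQ (Q : N222.E (Fin 3) ≃ₗᵢ[ℝ] N222.E (Fin 3)) : On (fQ Q) := fun i j => by
  rw [fQ, fQ, dot_cx, Q.inner_map_map, inner_ee]
  by_cases h : i = j
  · simp [h]
  · simp [h, Ne.symm h]

theorem cx_fr (Q : N222.E (Fin 3) ≃ₗᵢ[ℝ] N222.E (Fin 3)) (θ a b c : ℝ) :
    cx (fr Q θ a b c) = frC (fQ Q) θ a b c := by
  funext i
  simp [fr_eq, cx, frC, fQ]

theorem cs (θ : ℝ) : (Real.cos θ : ℂ) ^ 2 + (Real.sin θ : ℂ) ^ 2 = 1 := by
  exact_mod_cast Real.cos_sq_add_sin_sq θ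

theorem smul_frC (s a b c : ℂ) (i : Fin 3) :
    s * frC f θ a b c i = frC f θ (s * a) (s * b) (s * c) i := by
  simp only [frC]; ring

theorem add_frC (a b c a' b' c' : ℂ) (i : Fin 3) :
    frC f θ a b c i + frC f θ a' b' c' i = frC f θ (a + a') (b + b') (c + c') i := by
  simp only [frC]; ring

namespace On

variable (h : On f)
include h

theorem dot_frC (a b c a' b' c' : ℂ) :
    dot (frC f θ a b c) (frC f θ a' b' c') = a * a' + b * b' + c * c' := by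
  have h00 := h 0 0
  have h11 := h 1 1
  have h22 := h 2 2
  have h01 := h 0 1
  have h02 := h 0 2
  have h12 := h 1 2
  have := cs θ
  simp only [dot, frC, Fin.sum_univ_three, if_true, Fin.reduceEq, if_false] at *
  generalize (Real.cos θ : ℂ) = x at *
  generalize (Real.sin θ : ℂ) = y at *
  linear_combination a * a' * h00 + (b * x - c * y) * (b' * x - c' * y) * h11
    + (b * y + c * x) * (b' * y + c' * x) * h22
    + (a * (b' * x - c' * y) + a' * (b * x - c * y)) * h01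
    + (a * (b' * y + c' * x) + a' * (b * y + c * x)) * h02
    + ((b * x - c * y) * (b' * y + c' * x) + (b' * x - c' * y) * (b * y + c * x)) * h12
    + (b * b' + c * c') * this

theorem tp (i j k : Fin 3) (hj : i ≠ j) (hk : i ≠ k) : Tp (f i) (f j) (f k) :=
  ⟨(h i i).trans (if_pos rfl), (h i j).trans (if_neg hj), (h i k).trans (if_neg hk)⟩

theorem dl_sq : dl f ^ 2 = 1 := by
  have := (h.tp 0 1 2 (by decide) (by decide)).sig_sq
  rw [h, h, h] at this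
  exact this.trans (by simp)

theorem dl_ne : dl f ≠ 0 := fun e => by simpa [e] using h.dl_sq

theorem cr_frC (a b c a' b' c' : ℂ) (i : Fin 3) : cr (frC f θ a b c) (frC f θ a' b' c') i =
    dl f * frC f θ (b * c' - c * b') (c * a' - a * c') (a * b' - b * a') i := by
  have h0 := (h.tp 0 1 2 (by decide) (by decide)).cr_eq i
  have h1 := (h.tp 1 2 0 (by decide) (by decide)).cr_eq i
  have h2 := (h.tp 2 0 1 (by decide) (by decide)).cr_eq i
  have e1 : sig (f 1) (f 2) (f 0) = dl f := by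
    simp only [sig, dl, dot, cr, Fin.sum_univ_three, f01, f02, f11, f12, f21, f22]; ring
  have e2 : sig (f 2) (f 0) (f 1) = dl f := by
    simp only [sig, dl, dot, cr, Fin.sum_univ_three, f01, f02, f11, f12, f21, f22]; ring
  rw [e1] at h1
  rw [e2] at h2
  change _ = dl f * _ at h0
  have := cs θ
  simp only [cr, frC] at *
  generalize (Real.cos θ : ℂ) = x at *
  generalize (Real.sin θ : ℂ) = y at *
  linear_combination
    ((b * x - c * y) * (b' * y + c' * x) - (b' * x - c' * y) * (b * y + c * x)) * h0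
    + ((b * y + c * x) * a' - (b' * y + c' * x) * a) * h1
    + (a * (b' * x - c' * y) - a' * (b * x - c * y)) * h2
    + dl f * ((b * c' - c * b') * f 0 i) * this

theorem dot_dl (u : Fin 3 → ℂ) (a b c a' b' c' : ℂ) :
    dot u (cr (frC f θ a b c) (frC f θ a' b' c')) =
      dl f * dot u (frC f θ (b * c' - c * b') (c * a' - a * c') (a * b' - b * a')) := by
  simp only [dot, h.cr_frC, Finset.mul_sum]
  exact Finset.sum_congr rfl fun _ _ => by ring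

/-- the square of the area density -/
theorem G_pol (r rx rt : ℂ) : dot (cr (frC f θ 1 rx 0) (frC f θ 0 rt r))
    (cr (frC f θ 1 rx 0) (frC f θ 0 rt r)) = r ^ 2 + (r * rx) ^ 2 + rt ^ 2 := by
  rw [cr_cr, h.dot_frC, h.dot_frC, h.dot_frC]; ring

theorem H_pol (r rx rt rxx rxt rtt : ℂ) : Hc (frC f θ 1 rx 0) (frC f θ 0 rt r) (frC f θ 0 rxx 0)
    (frC f θ 0 rxt rx) (frC f θ 0 rxt rx) (frC f θ 0 (rtt - r) (2 * rt)) =
    dl f * ((r ^ 2 + rt ^ 2) * (r * rxx) - 2 * (rx * rt) * (r * rxt - rt * rx) +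
      (1 + rx ^ 2) * (r * rtt - r ^ 2 - 2 * rt ^ 2)) := by
  simp only [Hc, h.dot_dl, h.dot_frC]; ring

theorem EL_pol (x r rx rt rxx rxt rtt : ℂ) : ELc (frC f θ x r 0) (frC f θ 1 rx 0) (frC f θ 0 rt r)
    (frC f θ 0 rxx 0) (frC f θ 0 rxt rx) (frC f θ 0 rxt rx) (frC f θ 0 (rtt - r) (2 * rt)) =
    2 * dl f * PR x r rx rt rxx rxt rtt := by
  rw [ELc, h.H_pol, h.G_pol, h.dot_dl, h.dot_frC, PR]; ring

end On

/-! ### derivatives -/

/-- the complex polar graph -/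
def pC (f : Fin 3 → Fin 3 → ℂ) (r : ℝ × ℝ → ℂ) (q : ℝ × ℝ) : Fin 3 → ℂ := frC f q.2 q.1 (r q) 0

section Der

variable {r v : ℝ × ℝ → ℂ} {q : ℝ × ℝ}

theorem fderiv_frC {a b c : ℝ × ℝ → ℂ} (ha : DifferentiableAt ℝ a q) (hb : DifferentiableAt ℝ b q)
    (hc : DifferentiableAt ℝ c q) (w : ℝ × ℝ) :
    fderiv ℝ (fun y => frC f y.2 (a y) (b y) (c y)) q w =
      frC f q.2 (fderiv ℝ a q w) (fderiv ℝ b q w - c q * w.2) (fderiv ℝ c q w + b q * w.2) := by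
  have h1 : HasFDerivAt (fun y : ℝ × ℝ => (Real.cos y.2 : ℂ)) _ q :=
    Complex.ofRealCLM.hasFDerivAt.comp q hasFDerivAt_snd.cos
  have h2 : HasFDerivAt (fun y : ℝ × ℝ => (Real.sin y.2 : ℂ)) _ q :=
    Complex.ofRealCLM.hasFDerivAt.comp q hasFDerivAt_snd.sin
  have h := hasFDerivAt_pi.2 fun i => ((ha.hasFDerivAt.mul_const (f 0 i)).fun_add
    (((hb.hasFDerivAt.fun_mul h1).fun_sub (hc.hasFDerivAt.fun_mul h2)).mul_const (f 1 i))).fun_add
    (((hb.hasFDerivAt.fun_mul h2).fun_add (hc.hasFDerivAt.fun_mul h1)).mul_const (f 2 i))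
  refine (congrArg (fun T : ℝ × ℝ →L[ℝ] Fin 3 → ℂ => T w) h.fderiv).trans (funext fun i => ?_)
  simp only [ContinuousLinearMap.pi_apply, add_apply, sub_apply, smul_apply, smul_eq_mul,
    ContinuousLinearMap.comp_apply, ContinuousLinearMap.coe_snd', Complex.ofRealCLM_apply, frC]
  push_cast
  ring

theorem fd_pC (hr : DifferentiableAt ℝ r q) (w : ℝ × ℝ) :
    fderiv ℝ (pC f r) q w = frC f q.2 w.1 (fderiv ℝ r q w) (r q * w.2) := by
  have h1 : HasFDerivAt (fun y : ℝ × ℝ => (y.1 : ℂ)) _ q :=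
    Complex.ofRealCLM.hasFDerivAt.comp q hasFDerivAt_fst
  have := fderiv_frC (f := f) (c := fun _ => 0) h1.differentiableAt hr
    (differentiableAt_const _) w
  refine this.trans ?_
  rw [h1.fderiv]
  simp

theorem ev_diffC (hr : ContDiffAt ℝ 2 r q) : ∀ᶠ y in 𝓝 q, DifferentiableAt ℝ r y :=
  (hr.eventually (by simp)).mono fun _ hy => hy.differentiableAt (by simp)

theorem fd2_pC (hr : ContDiffAt ℝ 2 r q) (w' w : ℝ × ℝ) :
    fderiv ℝ (fun y => fderiv ℝ (pC f r) y w) q w' =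
      frC f q.2 0 (fderiv ℝ (fun y => fderiv ℝ r y w) q w' - r q * w.2 * w'.2)
        (fderiv ℝ r q w' * w.2 + fderiv ℝ r q w * w'.2) := by
  have h0 := hr.differentiableAt (by simp)
  have h1 : (fun y => fderiv ℝ (pC f r) y w) =ᶠ[𝓝 q]
      fun y => frC f y.2 w.1 (fderiv ℝ r y w) (r y * w.2) :=
    (ev_diffC hr).mono fun y hy => fd_pC hy w
  rw [h1.fderiv_eq, fderiv_frC (differentiableAt_const _) (diff_fd hr w) (h0.mul_const _),
    fderiv_mul_const h0]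
  simp [mul_comm]

theorem fd_vC (hr : DifferentiableAt ℝ r q) (hv : ∀ᶠ y in 𝓝 q, v y = r y ^ 2 / 2) (w : ℝ × ℝ) :
    fderiv ℝ v q w = r q * fderiv ℝ r q w := by
  have h := (hr.hasFDerivAt.fun_mul hr.hasFDerivAt).mul_const (1 / 2)
  have h' : v =ᶠ[𝓝 q] fun y => r y * r y * (1 / 2) := hv.mono fun y hy => by rw [hy]; ring
  rw [h'.fderiv_eq, h.fderiv]
  simp only [smul_apply, add_apply, smul_eq_mul]
  ring

theorem fd2_vC (hr : ContDiffAt ℝ 2 r q) (hv : ∀ᶠ y in 𝓝 q, v y = r y ^ 2 / 2) (w' w : ℝ × ℝ) :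
    fderiv ℝ (fun y => fderiv ℝ v y w) q w' =
      r q * fderiv ℝ (fun y => fderiv ℝ r y w) q w' + fderiv ℝ r q w' * fderiv ℝ r q w := by
  have h1 : (fun y => fderiv ℝ v y w) =ᶠ[𝓝 q] fun y => r y * fderiv ℝ r y w := by
    filter_upwards [ev_diffC hr, hv.eventually_nhds] with y h1 h2 using fd_vC h1 h2 w
  rw [h1.fderiv_eq, fderiv_fun_mul (hr.differentiableAt (by simp)) (diff_fd hr w)]
  simp only [smul_apply, add_apply, smul_eq_mul]
  ring

end Der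

/-- `Q` of a complex function -/
def QC (v : ℝ × ℝ → ℂ) (q : ℝ × ℝ) : ℂ := QQ (v q) (d1 v q) (d2 v q)

/-- the Euler–Lagrange expression of a complex function -/
def ELC (v : ℝ × ℝ → ℂ) (q : ℝ × ℝ) : ℂ :=
  Po.EL (q.1 : ℂ) (v q) (d1 v q) (d2 v q) (d1 (d1 v) q) (d1 (d2 v) q) (d2 (d2 v) q)

theorem Qf_eq (v p q : ℂ) : Act.Qf v p q = QQ v p q := rfl


/-- square root of a quotient by a positive number -/
theorem sqrt_mul_pos {z w : ℂ} {s : ℝ} (hs : 0 < s) (h : (s : ℂ) * z = w) :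
    (√s : ℝ) * Complex.sqrt z = Complex.sqrt w := by
  rcases eq_or_ne z 0 with rfl | hz
  · simp [← h]
  have h0 : (s : ℂ) * z ≠ 0 := mul_ne_zero (by exact_mod_cast hs.ne') hz
  rw [← h, sqrt_eq_exp hz, sqrt_eq_exp h0, Complex.log_ofReal_mul hs hz, add_div, Complex.exp_add,
    Real.sqrt_eq_rpow, Real.rpow_def_of_pos hs]
  push_cast
  ring_nf

variable {X : Type} [TopologicalSpace X] [MeasurableSpace X] {G : Geo X}

/-- near `q` the complex map `Y` is the polar graph of `r` in the frame `f`; `v = r² / 2` -/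
structure Pc (G : Geo X) (ψ : ℝ × ℝ → X) (Y : Fin 3 → G.SmC) (f : Fin 3 → Fin 3 → ℂ)
    (r v : ℝ × ℝ → ℂ) (q : ℝ × ℝ) : Prop extends Pm G ψ q where
  on : On f
  smr : ContDiffAt ℝ 2 r q
  ne : r q ≠ 0
  veq : ∀ᶠ y in 𝓝 q, v y = r y ^ 2 / 2
  eq : ∀ᶠ y in 𝓝 q, pb Y ψ y = pC f r y

namespace Pc

variable {ψ : ℝ × ℝ → X} {Y : Fin 3 → G.SmC} {r v : ℝ × ℝ → ℂ} {q : ℝ × ℝ}
  (h : Pc G ψ Y f r v q)
include h

theorem diff : DifferentiableAt ℝ r q := h.smr.differentiableAt (by simp)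

theorem v_eq : v q = r q ^ 2 / 2 := h.veq.self_of_nhds

theorem v1 : d1 v q = r q * d1 r q := fd_vC h.diff h.veq _

theorem v2 : d2 v q = r q * d2 r q := fd_vC h.diff h.veq _

theorem v11 : d1 (d1 v) q = r q * d1 (d1 r) q + d1 r q * d1 r q := fd2_vC h.smr h.veq _ _

theorem v12 : d1 (d2 v) q = r q * d1 (d2 r) q + d1 r q * d2 r q := fd2_vC h.smr h.veq _ _

theorem v22 : d2 (d2 v) q = r q * d2 (d2 r) q + d2 r q * d2 r q := fd2_vC h.smr h.veq _ _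

theorem fd1 (w : ℝ × ℝ) :
    fderiv ℝ (pb Y ψ) q w = frC f q.2 w.1 (fderiv ℝ r q w) (r q * w.2) := by
  rw [EventuallyEq.fderiv_eq h.eq, fd_pC h.diff]

theorem fd11 (w' w : ℝ × ℝ) : fderiv ℝ (fun y => fderiv ℝ (pb Y ψ) y w) q w' =
    frC f q.2 0 (fderiv ℝ (fun y => fderiv ℝ r y w) q w' - r q * w.2 * w'.2)
      (fderiv ℝ r q w' * w.2 + fderiv ℝ r q w * w'.2) := by
  have e : (fun y => fderiv ℝ (pb Y ψ) y w) =ᶠ[𝓝 q] fun y => fderiv ℝ (pC f r) y w :=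
    h.eq.eventually_nhds.mono fun y hy => by simp only [EventuallyEq.fderiv_eq hy]
  rw [e.fderiv_eq, fd2_pC h.smr]

theorem Y0 : pb Y ψ q = frC f q.2 q.1 (r q) 0 := h.eq.self_of_nhds

theorem Y1 : d1 (pb Y ψ) q = frC f q.2 1 (d1 r q) 0 := by
  unfold d1; simpa using h.fd1 (1, 0)

theorem Y2 : d2 (pb Y ψ) q = frC f q.2 0 (d2 r q) (r q) := by
  unfold d2; simpa using h.fd1 (0, 1)

theorem Y11 : d1 (d1 (pb Y ψ)) q = frC f q.2 0 (d1 (d1 r) q) 0 := by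
  unfold d1; simpa using h.fd11 (1, 0) (1, 0)

theorem Y12 : d1 (d2 (pb Y ψ)) q = frC f q.2 0 (d1 (d2 r) q) (d1 r q) := by
  unfold d1 d2; simpa using h.fd11 (1, 0) (0, 1)

theorem Y21 : d2 (d1 (pb Y ψ)) q = frC f q.2 0 (d1 (d2 r) q) (d1 r q) := by
  rw [d21 (h.cd_pb Y), h.Y12]

theorem Y22 : d2 (d2 (pb Y ψ)) q = frC f q.2 0 (d2 (d2 r) q - r q) (2 * d2 r q) := by
  unfold d2; simpa [two_mul] using h.fd11 (0, 1) (0, 1)

theorem QC_eq : QC v q = r q ^ 2 + (r q * d1 r q) ^ 2 + d2 r q ^ 2 := by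
  rw [QC, h.v_eq, h.v1, h.v2, QQ_r h.ne]

/-- the normal (`-dl` times the outer one) -/
theorem N_pol (c : Fin 3) : sg G ψ q * (G.SC.NX Y c).1 (ψ q) =
    dl f * frC f q.2 (d1 v q) (-r q) (d2 r q) c := by
  rw [h.N_eq, h.Y1, h.Y2, h.on.cr_frC, h.v1]
  simp [mul_comm]

theorem dot_N (V : Fin 3 → ℂ) : sg G ψ q * dot (val (G.SC.NX Y) (ψ q)) V =
    dl f * dot (frC f q.2 (d1 v q) (-r q) (d2 r q)) V := by
  simp only [dot, val, Finset.mul_sum, ← mul_assoc, h.N_pol]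

/-- the area density -/
theorem G_pol : sg G ψ q ^ 2 * (G.SC.GX Y).1 (ψ q) = QC v q := by
  rw [h.G_eq, h.Y1, h.Y2, h.on.G_pol, h.QC_eq]

theorem sq_pol : (dot Y Y).1 (ψ q) = (q.1 : ℂ) ^ 2 + 2 * v q := by
  rw [dot_val]
  change dot (pb Y ψ q) (pb Y ψ q) = _
  rw [h.Y0, h.on.dot_frC, h.v_eq]; ring

/-- the Euler–Lagrange expression, polynomial form -/
theorem EL_r : sg G ψ q ^ 3 * (G.SC.ELX Y).1 (ψ q) = 2 * dl f *
    PR (q.1 : ℂ) (r q) (d1 r q) (d2 r q) (d1 (d1 r) q) (d1 (d2 r) q) (d2 (d2 r) q) := by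
  rw [h.EL_eq, h.Y0, h.Y1, h.Y2, h.Y11, h.Y12, h.Y21, h.Y22, h.on.EL_pol]

/-- **the Euler–Lagrange expression** -/
theorem EL_pol (hQ : QC v q ≠ 0) :
    sg G ψ q ^ 3 * (G.SC.ELX Y).1 (ψ q) = 2 * dl f * (ELC v q * QC v q) := by
  rw [h.EL_r, ELC, h.v_eq, h.v1, h.v2, h.v11, h.v12, h.v22, h.QC_eq,
    Po.EL_r h.ne (h.QC_eq ▸ hQ)]

/-- the flux through a cut-off `g` depending on `x` only, in the direction `a f₀ + b ω + c ω'` -/
theorem W_pol (g : G.SmC) (hg : d2 (fun y => g.1 (ψ y)) q = 0) (a b c : ℂ) :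
    sg G ψ q ^ 2 * ∑ e, (G.SC.D e g).1 (ψ q) * dot (val (G.SC.WX Y e) (ψ q)) (frC f q.2 a b c) =
      d1 (fun y => g.1 (ψ y)) q *
        ((r q ^ 2 + d2 r q ^ 2) * a + r q * d1 v q * b - d1 v q * d2 r q * c) := by
  rw [h.W_eq, hg, h.Y1, h.Y2, h.v1]
  simp only [h.on.dot_frC]
  ring

/-! ### the Lagrangian; `√det` is the area density of `ψ` -/

variable (hD : 0 < det (G.M.x ∘ ψ) q)
include hD

omit hD in
theorem det_G : (det (G.M.x ∘ ψ) q : ℝ) * (G.SC.GX Y).1 (ψ q) = QC v q := by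
  rw [← h.sg_sq, h.G_pol]

theorem sg_ne : sg G ψ q ≠ 0 := fun e => by
  have := h.sg_sq
  rw [e] at this
  exact hD.ne (by exact_mod_cast (zero_pow two_ne_zero).symm.trans this)

theorem slit_iff : (G.SC.GX Y).1 (ψ q) ∈ Complex.slitPlane ↔ QC v q ∈ Complex.slitPlane := by
  rw [← h.det_G]
  simp [Complex.mem_slitPlane_iff, hD, hD.ne']

theorem ok (hG : (G.SC.GX Y).1 (ψ q) ∈ Complex.slitPlane) : Act.Ok (v q) (d1 v q) (d2 v q) :=
  ⟨by rw [h.v_eq]; exact div_ne_zero (pow_ne_zero 2 h.ne) two_ne_zero, (h.slit_iff hD).1 hG⟩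

theorem sqrt_G : (√(det (G.M.x ∘ ψ) q) : ℝ) * Complex.sqrt ((G.SC.GX Y).1 (ψ q)) =
    Act.Wf (v q) (d1 v q) (d2 v q) := sqrt_mul_pos hD (h.det_G)

omit hD in
theorem exp_pol : Complex.exp (-(dot Y Y).1 (ψ q) / 4) = Act.Ef q.1 (v q) := by
  rw [h.sq_pol, Act.Ef]; congr 1; ring


/-- the flux density -/
theorem flux_pol (hQ : QC v q ≠ 0) (g : G.SmC) (hg : d2 (fun y => g.1 (ψ y)) q = 0) (a b c : ℂ) :
    (√(det (G.M.x ∘ ψ) q) : ℝ) * ((Complex.sqrt ((G.SC.GX Y).1 (ψ q)))⁻¹ *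
      ∑ e, (G.SC.D e g).1 (ψ q) * dot (val (G.SC.WX Y e) (ψ q)) (frC f q.2 a b c)) =
      d1 (fun y => g.1 (ψ y)) q *
        ((r q ^ 2 + d2 r q ^ 2) * a + r q * d1 v q * b - d1 v q * d2 r q * c) /
          Act.Wf (v q) (d1 v q) (d2 v q) := by
  have hW : Act.Wf (v q) (d1 v q) (d2 v q) ≠ 0 := fun e => hQ (by
    rw [QC, ← Qf_eq, ← Act.Wf_sq, e]; simp)
  have h2 : ((√(det (G.M.x ∘ ψ) q) : ℝ) : ℂ) ^ 2 = sg G ψ q ^ 2 := by
    rw [h.sg_sq]; exact_mod_cast Real.sq_sqrt hD.le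
  rw [← h.W_pol g hg, ← h2]
  rw [← h.sqrt_G hD] at hW ⊢
  have h3 := left_ne_zero_of_mul hW
  have h4 := right_ne_zero_of_mul hW
  field_simp


end Pc

end Crest.Agent.N250.Cj

end
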