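import Crest.Agent.N250.Gc.Alg
import Crest.Agent.N250.Gc.Par
import Crest.Agent.N250.Wt.Defs
import Crest.Agent.N250.Po.Pol

-- ▼ part N250/Cj/Alg
section

/-!
# Row 250 (helper82): the polynomials of `Gc/Alg` in a chart (pure algebra, any ring)

`u`, `v` are tangent vectors of the base, `σ = ⟨n, u × v⟩`, `cb u J`, `cb v J` the tangent vectors of
the image.
-/

set_option autoImplicit false

namespace Crest.Agent.N250.Cj

open Gc

variable {R : Type} [CommRing R]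

/-- `∑ u_a J_a` -/
def cb (u : Fin 3 → R) (J : Fin 3 → Fin 3 → R) (c : Fin 3) : R := ∑ a, u a * J a c

/-- `∑ u_a v_b T_ab` -/
def bl (T : Fin 3 → Fin 3 → R) (u v : Fin 3 → R) : R := ∑ a, ∑ b, u a * v b * T a b

/-- `∑ u_a v_b K_ab` -/
def cb2 (K : Fin 3 → Fin 3 → Fin 3 → R) (u v : Fin 3 → R) (c : Fin 3) : R :=
  ∑ a, ∑ b, u a * v b * K a b c

/-- mean curvature of a parametrisation times `|X₁ × X₂|³` -/
def Hc (X1 X2 X11 X12 X21 X22 : Fin 3 → R) : R :=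
  -(dot X2 X2 * dot X11 (cr X1 X2) - dot X1 X2 * (dot X12 (cr X1 X2) + dot X21 (cr X1 X2)) +
    dot X1 X1 * dot X22 (cr X1 X2))

/-- `(2 H - ⟨X, n⟩) |X₁ × X₂|³` -/
def ELc (X X1 X2 X11 X12 X21 X22 : Fin 3 → R) : R :=
  2 * Hc X1 X2 X11 X12 X21 X22 - dot X (cr X1 X2) * dot (cr X1 X2) (cr X1 X2)

theorem cr_cr (u v : Fin 3 → R) : dot (cr u v) (cr u v) = dot u u * dot v v - dot u v ^ 2 := by
  simp only [dot, cr, Fin.sum_univ_three, f01, f02, f11, f12, f21, f22]; ring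



theorem dot_cb (u v : Fin 3 → R) (J : Fin 3 → Fin 3 → R) :
    dot (cb u J) (cb v J) = bl (gm J) u v := by
  simp only [dot, cb, bl, gm, Fin.sum_univ_three]; ring

theorem dot_cb2 (K : Fin 3 → Fin 3 → Fin 3 → R) (u v w : Fin 3 → R) :
    dot (cb2 K u v) w = bl (fun a b => dot (K a b) w) u v := by
  simp only [dot, cb2, bl, Fin.sum_univ_three]; ring

theorem dot_cb_left (u w : Fin 3 → R) (J : Fin 3 → Fin 3 → R) :
    dot (cb u J) w = ∑ a, u a * dot (J a) w := by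
  simp only [dot, cb, Fin.sum_univ_three]; ring

theorem cr_cb (u v : Fin 3 → R) (J : Fin 3 → Fin 3 → R) (c : Fin 3) :
    cr (cb u J) (cb v J) c = ∑ e, cr u v e * cof J e c := by
  simp only [cof, cb, cr, Fin.sum_univ_three, f01, f02, f11, f12, f21, f22]; ring

/-- `n` is a unit normal of the plane of `u`, `v` -/
structure Tp (n u v : Fin 3 → R) : Prop where
  nn : ∑ a, n a * n a = 1
  nu : dot n u = 0
  nv : dot n v = 0

/-- the signed area of `u`, `v` -/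
def sig (n u v : Fin 3 → R) : R := dot n (cr u v)

namespace Tp

variable {n u v : Fin 3 → R} (h : Tp n u v)
include h

theorem cr_eq (c : Fin 3) : cr u v c = sig n u v * n c := by
  have h1 := h.nn
  have h2 := h.nu
  have h3 := h.nv
  simp only [dot, Fin.sum_univ_three] at h1 h2 h3
  induction c using fin3 <;>
    simp only [sig, dot, cr, Fin.sum_univ_three, f01, f02, f11, f12, f21, f22]
  · linear_combination (-(u 1 * v 2 - u 2 * v 1)) * h1 + (n 1 * v 2 - n 2 * v 1) * h2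
      - (n 1 * u 2 - n 2 * u 1) * h3
  · linear_combination (-(u 2 * v 0 - u 0 * v 2)) * h1 + (n 2 * v 0 - n 0 * v 2) * h2
      - (n 2 * u 0 - n 0 * u 2) * h3
  · linear_combination (-(u 0 * v 1 - u 1 * v 0)) * h1 + (n 0 * v 1 - n 1 * v 0) * h2
      - (n 0 * u 1 - n 1 * u 0) * h3

theorem sig_sq : sig n u v ^ 2 = dot u u * dot v v - dot u v ^ 2 := by
  rw [← cr_cr]
  have := h.nn
  simp only [dot, h.cr_eq, Fin.sum_univ_three] at this ⊢
  linear_combination (-sig n u v ^ 2) * this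

/-- the trace of `T` with respect to `g` -/
theorem mixed {g T : Fin 3 → Fin 3 → R} (hs : ∀ a b, g a b = g b a)
    (hg : ∀ b, ∑ a, n a * g a b = 0) (hT : ∀ b, ∑ a, n a * T a b = 0) :
    sig n u v ^ 2 * ∑ a, ∑ b, ((if a = b then ∑ e, g e e else 0) - g a b) * T a b =
      bl g v v * bl T u u - bl g u v * (bl T u v + bl T v u) + bl g u u * bl T v v := by
  have e : bl g v v * bl T u u - bl g u v * (bl T u v + bl T v u) + bl g u u * bl T v v =
      ∑ a, ∑ b, cr u v a * cr u v b * (g (a + 1) (b + 1) * T (a + 2) (b + 2)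
        - g (a + 1) (b + 2) * T (a + 2) (b + 1) - g (a + 2) (b + 1) * T (a + 1) (b + 2)
        + g (a + 2) (b + 2) * T (a + 1) (b + 1)) := by
    simp only [bl, cr, Fin.sum_univ_three, f01, f02, f11, f12, f21, f22, hs 1 0, hs 2 0, hs 2 1]
    ring
  rw [e]
  have h1 := h.nn
  have g0 := hg 0
  have g1 := hg 1
  have g2 := hg 2
  have t0 := hT 0
  have t1 := hT 1
  have t2 := hT 2
  simp only [h.cr_eq]
  generalize sig n u v = s
  simp only [Fin.sum_univ_three, f01, f02, f11, f12, f21, f22, hs 1 0, hs 2 0, hs 2 1, if_true,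
    Fin.reduceEq, if_false] at h1 g0 g1 g2 t0 t1 t2 ⊢
  linear_combination (exp := 1) s ^ 2 * (-((g 0 0 + g 1 1 + g 2 2) * (T 0 0 + T 1 1 + T 2 2)
      - (g 0 0 * T 0 0 + g 0 1 * T 0 1 + g 0 2 * T 0 2 + g 0 1 * T 1 0 + g 1 1 * T 1 1
        + g 1 2 * T 1 2 + g 0 2 * T 2 0 + g 1 2 * T 2 1 + g 2 2 * T 2 2)) * h1
    + (T 0 0 + T 1 1 + T 2 2) * (n 0 * g0 + n 1 * g1 + n 2 * g2)
    + (g 0 0 + g 1 1 + g 2 2) * (n 0 * t0 + n 1 * t1 + n 2 * t2)
    - ((n 0 * T 0 0 + n 1 * T 1 0 + n 2 * T 2 0) * g0 + (n 0 * T 0 1 + n 1 * T 1 1 + n 2 * T 2 1) * g1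
      + (n 0 * T 0 2 + n 1 * T 1 2 + n 2 * T 2 2) * g2)
    - ((n 0 * T 0 0 + n 1 * T 0 1 + n 2 * T 0 2) * g0 + (n 0 * T 1 0 + n 1 * T 1 1 + n 2 * T 1 2) * g1
      + (n 0 * T 2 0 + n 1 * T 2 1 + n 2 * T 2 2) * g2))

variable {J : Fin 3 → Fin 3 → R} (hJ : ∀ c, ∑ a, n a * J a c = 0)
include hJ

theorem fr : Fr n J := ⟨h.nn, hJ⟩

/-- the normal -/
theorem N_eq (c : Fin 3) : sig n u v * Nv n J c = cr (cb u J) (cb v J) c := by
  rw [cr_cb]
  simp only [(h.fr hJ).cof_eq, sig, dot, Finset.sum_mul]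
  exact Finset.sum_congr rfl fun e _ => by ring

theorem dot_N (w : Fin 3 → R) :
    sig n u v * dot w (Nv n J) = dot w (cr (cb u J) (cb v J)) := by
  simp only [dot, ← h.N_eq hJ, Finset.mul_sum]
  exact Finset.sum_congr rfl fun e _ => by ring

/-- the area density -/
theorem G_eq : sig n u v ^ 2 * G2 n J = dot (cr (cb u J) (cb v J)) (cr (cb u J) (cb v J)) := by
  simp only [G2, dot, ← h.N_eq hJ, Finset.mul_sum]
  exact Finset.sum_congr rfl fun e _ => by ring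

theorem J_cr (a : Fin 3) : dot (J a) (cr (cb u J) (cb v J)) = 0 := by
  rw [← h.dot_N hJ, dot_comm, (h.fr hJ).N_J, mul_zero]

/-- the pairing of the dual frame with a gradient `d` and a vector `V` -/
theorem W_eq {d : Fin 3 → R} (hd : ∑ a, n a * d a = 0) (V : Fin 3 → R) :
    sig n u v ^ 2 * ∑ a, d a * dot (Wv J a) V =
      dot (cb v J) (cb v J) * (dot u d * dot (cb u J) V) -
        dot (cb u J) (cb v J) * (dot u d * dot (cb v J) V + dot v d * dot (cb u J) V) +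
          dot (cb u J) (cb u J) * (dot v d * dot (cb v J) V) := by
  have e := h.mixed (g := gm J) (T := fun a b => d a * dot (J b) V) (gm_symm J) (h.fr hJ).n_gm
    fun b => by simp only [← mul_assoc, ← Finset.sum_mul, hd, zero_mul]
  have b : ∀ x y : Fin 3 → R, bl (fun a b => d a * dot (J b) V) x y = dot x d * dot (cb y J) V :=
    fun x y => by simp only [bl, dot, cb, Fin.sum_univ_three]; ring
  simp only [b, ← dot_cb] at e
  rw [← e]
  simp only [dot_W, adj, Finset.mul_sum]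
  exact Finset.sum_congr rfl fun a _ => Finset.sum_congr rfl fun b _ => by ring

variable {K : Fin 3 → Fin 3 → Fin 3 → R} (hK : ∀ b c, ∑ a, n a * K a b c = 0)
  {X11 X12 X21 X22 w11 w12 w21 w22 : Fin 3 → R}
  (h11 : ∀ c, X11 c = cb2 K u u c + cb w11 J c) (h12 : ∀ c, X12 c = cb2 K u v c + cb w12 J c)
  (h21 : ∀ c, X21 c = cb2 K v u c + cb w21 J c) (h22 : ∀ c, X22 c = cb2 K v v c + cb w22 J c)
include hK h11 h12 h21 h22

/-- the mean curvature -/
theorem H_eq : sig n u v ^ 3 * HP n J K = Hc (cb u J) (cb v J) X11 X12 X21 X22 := by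
  have e := h.mixed (g := gm J) (T := fun a b => dot (K a b) (cr (cb u J) (cb v J))) (gm_symm J)
    (h.fr hJ).n_gm fun b => by
      simp only [dot, Finset.mul_sum, ← mul_assoc]
      rw [Finset.sum_comm]
      simp only [← Finset.sum_mul, hK, zero_mul, Finset.sum_const_zero]
  have k : ∀ {Y w x y : Fin 3 → R}, (∀ c, Y c = cb2 K x y c + cb w J c) →
      dot Y (cr (cb u J) (cb v J)) = bl (fun a b => dot (K a b) (cr (cb u J) (cb v J))) x y := by
    intro Y w x y hY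
    have : dot Y (cr (cb u J) (cb v J)) = dot (cb2 K x y) (cr (cb u J) (cb v J)) +
        dot (cb w J) (cr (cb u J) (cb v J)) := by
      simp only [dot, hY, add_mul, Finset.sum_add_distrib]
    rw [this, dot_cb2, dot_cb_left]
    simp only [h.J_cr hJ, mul_zero, Finset.sum_const_zero, add_zero]
  rw [Hc, k h11, k h12, k h21, k h22, dot_cb, dot_cb, dot_cb, ← e]
  simp only [HP, adj, ← h.dot_N hJ, Finset.mul_sum, mul_neg, neg_inj]
  exact Finset.sum_congr rfl fun a _ => Finset.sum_congr rfl fun b _ => by ring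

/-- the Euler–Lagrange expression -/
theorem EL_eq (X : Fin 3 → R) :
    sig n u v ^ 3 * EL n X J K = ELc X (cb u J) (cb v J) X11 X12 X21 X22 := by
  rw [ELc, ← h.H_eq hJ hK h11 h12 h21 h22, ← h.G_eq hJ, ← h.dot_N hJ, EL]
  ring

end Tp

end Crest.Agent.N250.Cj
end

-- ▼ part N250/Cj/Ch

/-!
# Row 250 (helper82): the complex delta-calculus of `WS.Geo` along a parametrisation
-/

set_option autoImplicit false
open Set Filter Topology
open scoped ContDiff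

noncomputable section

namespace Crest.Agent.N250.Cj

open Crest.Agent.N222 Gc Po WS

section Imm

variable {X Z F : Type} [TopologicalSpace X] [NormedAddCommGroup Z] [NormedSpace ℝ Z]
  [NormedAddCommGroup F] [NormedSpace ℝ F] {d : ℕ} {ι : Type} [Fintype ι] {M : Imm d ι X}
  {ψ : Z → X} {z : Z} {n : ℕ∞} {f : X → F}

theorem chart_map {x : X → N222.E ι} {e : OpenPartialHomeomorph X (N222.E (Fin d))}
    (he : IsChart x e) (hj : ContinuousAt ψ z) (hjz : ψ z ∈ e.source)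
    (hx : ContDiffAt ℝ n (x ∘ ψ) z) : ContDiffAt ℝ n (e ∘ ψ) z := by
  set w := e (ψ z) with hw
  have hwt : w ∈ e.target := e.map_source hjz
  have hφ : ContDiffAt ℝ ∞ (x ∘ e.symm) w := he.sm.contDiffAt (e.open_target.mem_nhds hwt)
  set J := fderiv ℝ (x ∘ e.symm) w with hJ
  obtain ⟨u, hu⟩ := isUnit_gram (he.inj w hwt)
  have hψ : ContDiffAt ℝ ∞ (ContinuousLinearMap.adjoint J ∘ x ∘ e.symm) w :=
    (ContinuousLinearMap.adjoint J).contDiff.contDiffAt.comp w hφ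
  have hψ' : HasFDerivAt (ContinuousLinearMap.adjoint J ∘ x ∘ e.symm)
      (ContinuousLinearEquiv.ofUnit u : N222.E (Fin d) →L[ℝ] N222.E (Fin d)) w := by
    have h1 := (ContinuousLinearMap.adjoint J).hasFDerivAt.comp w
      (hφ.differentiableAt (by simp)).hasFDerivAt
    have h2 : (ContinuousLinearEquiv.ofUnit u : N222.E (Fin d) →L[ℝ] N222.E (Fin d)) =
        ContinuousLinearMap.adjoint J ∘L J := by
      rw [← hu]; rfl
    rw [h2]; exact h1
  have hn : (∞ : WithTop ℕ∞) ≠ 0 := by simp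
  have hinv := hψ.to_localInverse hψ' hn
  have hleft := (hψ.hasStrictFDerivAt' hψ' hn).eventually_left_inverse
  have hc : ContinuousAt (e ∘ ψ) z := ContinuousAt.comp (f := ψ) (e.continuousAt hjz) hj
  have hs : ∀ᶠ y in 𝓝 z, ψ y ∈ e.source := hj.eventually (e.open_source.mem_nhds hjz)
  have h3 : ContDiffAt ℝ n (ContinuousLinearMap.adjoint J ∘ x ∘ ψ) z :=
    (ContinuousLinearMap.adjoint J).contDiff.contDiffAt.comp z hx
  have h4 : (ContinuousLinearMap.adjoint J ∘ x ∘ e.symm) w =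
      (ContinuousLinearMap.adjoint J ∘ x ∘ ψ) z := by
    simp only [Function.comp_apply, hw, e.left_inv hjz]
  rw [h4] at hinv
  refine ((hinv.of_le (by exact_mod_cast le_top)).comp z h3).congr_of_eventuallyEq ?_
  filter_upwards [hs, hc.eventually hleft] with y hy hy'
  simp only [Function.comp_apply, e.left_inv hy] at hy' ⊢
  exact hy'.symm

omit [NormedSpace ℝ Z] [NormedAddCommGroup F] [NormedSpace ℝ F] in
theorem ev_chart (g : X → F) (hj : ContinuousAt ψ z) :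
    (fun y => g (ψ y)) =ᶠ[𝓝 z] (g ∘ (M.ch (ψ z)).symm) ∘ (M.ch (ψ z) ∘ ψ) := by
  filter_upwards [hj.eventually ((M.ch (ψ z)).open_source.mem_nhds (M.mem _))] with y hy
  simp only [Function.comp_apply, (M.ch (ψ z)).left_inv hy]

/-- smooth functions along a map into the surface -/
theorem cd_map (hf : M.Sm f) (hj : ContinuousAt ψ z) (hx : ContDiffAt ℝ n (M.x ∘ ψ) z) :
    ContDiffAt ℝ n (fun y => f (ψ y)) z := by
  have h1 := chart_map (M.isChart _) hj (M.mem _) hx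
  have h2 : ContDiffAt ℝ ∞ (f ∘ (M.ch (ψ z)).symm) ((M.ch (ψ z) ∘ ψ) z) :=
    (hf _).contDiffAt ((M.ch _).open_target.mem_nhds ((M.ch _).map_source (M.mem _)))
  exact ((h2.of_le (by exact_mod_cast le_top)).comp z h1).congr_of_eventuallyEq (ev_chart f hj)

/-- chain rule along a map into the surface -/
theorem hasF_map (hf : M.DiffAt f (ψ z)) (hj : ContinuousAt ψ z)
    (hx : ContDiffAt ℝ 1 (M.x ∘ ψ) z) :
    HasFDerivAt (fun y => f (ψ y)) (M.td f (ψ z) ∘L fderiv ℝ (M.x ∘ ψ) z) z := by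
  have h1 := ((chart_map (n := 1) (M.isChart _) hj (M.mem _) hx).differentiableAt
    one_ne_zero).hasFDerivAt
  have k : ∀ {G : Type} [NormedAddCommGroup G] [NormedSpace ℝ G] {g : X → G}, M.DiffAt g (ψ z) →
      HasFDerivAt (fun y => g (ψ y)) (fderiv ℝ (g ∘ (M.ch (ψ z)).symm) (M.ch (ψ z) (ψ z)) ∘L
        fderiv ℝ (M.ch (ψ z) ∘ ψ) z) z := fun hg =>
    (HasFDerivAt.comp z (f := M.ch (ψ z) ∘ ψ) hg.hasFDerivAt h1).congr_of_eventuallyEq
      (ev_chart _ hj)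
  have h2 : fderiv ℝ (M.x ∘ ψ) z = _ := (k (M.sm_x.diffAt _)).fderiv
  rw [h2, ← ContinuousLinearMap.comp_assoc, ← Imm.fderiv_chart f (M.isChart _) (M.mem _)]
  exact k hf

end Imm

variable {X : Type} [TopologicalSpace X] [MeasurableSpace X] {G : Geo X}

/-- evaluation of complex smooth functions -/
def ev (G : Geo X) (p : X) : G.SmC →+* ℂ :=
  (Pi.evalRingHom (fun _ : X => ℂ) p).comp G.SmC.val.toRingHom

theorem ev_apply (p : X) (f : G.SmC) : ev G p f = f.1 p := rfl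

theorem D_apply (f : G.SmC) (a : Fin 3) (p : X) :
    (G.SC.D a f).1 p = G.M.td f.1 p (N222.ee a) := by
  have h1 := Imm.td_comp (Imm.Sm.diffAt f.2 p) (g := Complex.reCLM)
    Complex.reCLM.differentiableAt
  have h2 := Imm.td_comp (Imm.Sm.diffAt f.2 p) (g := Complex.imCLM)
    Complex.imCLM.differentiableAt
  change ((G.M.td (fun q => Complex.reCLM (f.1 q)) p (N222.ee a) : ℝ) : ℂ) +
    Complex.I • ((G.M.td (fun q => Complex.imCLM (f.1 q)) p (N222.ee a) : ℝ) : ℂ) = _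
  rw [h1, h2, ContinuousLinearMap.fderiv, ContinuousLinearMap.fderiv]
  simp only [ContinuousLinearMap.comp_apply, Complex.reCLM_apply, Complex.imCLM_apply, smul_eq_mul]
  rw [mul_comm]
  exact Complex.re_add_im _

theorem td_eq (f : G.SmC) (p : X) (w : N222.E (Fin 3)) :
    G.M.td f.1 p w = ∑ a, (w a : ℂ) * (G.SC.D a f).1 p := by
  conv_lhs => rw [N222.eq_sum_ee w]
  simp only [map_sum, map_smul, D_apply, Complex.real_smul]

/-- the normal as a vector -/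
def nv (G : Geo X) (p : X) : N222.E (Fin 3) := WithLp.toLp 2 fun a => (G.n a).1 p

theorem nn (p : X) : ∑ a, (G.n a).1 p * (G.n a).1 p = 1 := by
  have := congrArg (fun f : G.R => f.1 p) G.hyp.nn
  simpa [mov] using this

theorem PL_nv (p : X) : G.M.PL p (nv G p) = 0 := by
  ext a
  have h : ∀ b, G.M.pre.P a b p = (if a = b then 1 else 0) - (G.n a).1 p * (G.n b).1 p := fun b => by
    have := congrArg (fun f : G.R => f.1 p) (G.hyp.Pn a b)
    refine Eq.trans rfl (this.trans ?_)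
    split_ifs <;> rfl
  rw [Imm.PL_apply]
  simp only [h, nv, sub_mul, Finset.sum_sub_distrib, ite_mul, one_mul, zero_mul,
    Finset.sum_ite_eq, Finset.mem_univ, if_true, mul_assoc, ← Finset.mul_sum, nn, mul_one, sub_self,
    PiLp.zero_apply]

/-- complex normal, first and second derivatives at a point -/
def nC (G : Geo X) (p : X) (a : Fin 3) : ℂ := ((G.n a).1 p : ℂ)

theorem n_D (f : G.SmC) (p : X) : ∑ a, nC G p a * (G.SC.D a f).1 p = 0 := by
  have := td_eq f p (nv G p)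
  rw [← Imm.td_PL, PL_nv, map_zero] at this
  exact this.symm

/-- complexification of a vector -/
def cx (w : N222.E (Fin 3)) (a : Fin 3) : ℂ := (w a : ℂ)

theorem dot_cx (u w : N222.E (Fin 3)) : dot (cx u) (cx w) = (inner ℝ u w : ℝ) := by
  rw [inner_eq_sum]
  simp [dot, cx]

/-- values of a complex map -/
def val (Y : Fin 3 → G.SmC) (p : X) (c : Fin 3) : ℂ := (Y c).1 p

/-- first derivatives -/
def JC (Y : Fin 3 → G.SmC) (p : X) (a c : Fin 3) : ℂ := (G.SC.D a (Y c)).1 p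

/-- second derivatives -/
def KC (Y : Fin 3 → G.SmC) (p : X) (a b c : Fin 3) : ℂ := (G.SC.D a (G.SC.D b (Y c))).1 p

section Val

variable (Y : Fin 3 → G.SmC) (p : X)

theorem NX_val (c : Fin 3) : (G.SC.NX Y c).1 p = Nv (nC G p) (JC Y p) c :=
  map_Nv (ev G p) _ _ c

theorem GX_val : (G.SC.GX Y).1 p = G2 (nC G p) (JC Y p) := map_G2 (ev G p) _ _

theorem WX_val (a c : Fin 3) : (G.SC.WX Y a c).1 p = Wv (JC Y p) a c := map_Wv (ev G p) _ a c

theorem HX_val : (G.SC.HX Y).1 p = HP (nC G p) (JC Y p) (KC Y p) := map_HP (ev G p) _ _ _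

theorem ELX_val : (G.SC.ELX Y).1 p = Gc.EL (nC G p) (val Y p) (JC Y p) (KC Y p) :=
  map_EL (ev G p) _ _ _ _

theorem dot_val (V : Fin 3 → G.SmC) : (dot Y V).1 p = dot (val Y p) (val V p) :=
  map_dot (ev G p) _ _

end Val

/-- `ψ` parametrises the surface near `q` -/
structure Pm (G : Geo X) (ψ : ℝ × ℝ → X) (q : ℝ × ℝ) : Prop where
  cont : ∀ᶠ y in 𝓝 q, ContinuousAt ψ y
  sm : ContDiffAt ℝ 2 (G.M.x ∘ ψ) q

/-- the signed area density of the parametrisation -/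
def sg (G : Geo X) (ψ : ℝ × ℝ → X) (q : ℝ × ℝ) : ℂ :=
  sig (nC G (ψ q)) (cx (d1 (G.M.x ∘ ψ) q)) (cx (d2 (G.M.x ∘ ψ) q))

/-- a complex map in the parametrisation -/
def pb (Y : Fin 3 → G.SmC) (ψ : ℝ × ℝ → X) (y : ℝ × ℝ) : Fin 3 → ℂ := val Y (ψ y)

namespace Pm

variable {ψ : ℝ × ℝ → X} {q : ℝ × ℝ} (h : Pm G ψ q)
include h

theorem ev : ∀ᶠ y in 𝓝 q, Pm G ψ y :=
  (h.cont.eventually_nhds.and (h.sm.eventually (by simp))).mono fun _ hy => ⟨hy.1, hy.2⟩

theorem cd {F : Type} [NormedAddCommGroup F] [NormedSpace ℝ F] {f : X → F} (hf : G.M.Sm f) :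
    ContDiffAt ℝ 2 (fun y => f (ψ y)) q :=
  cd_map (n := 2) hf h.cont.self_of_nhds h.sm

theorem fd' {F : Type} [NormedAddCommGroup F] [NormedSpace ℝ F] {f : X → F} (hf : G.M.Sm f)
    (w : ℝ × ℝ) : fderiv ℝ (fun y => f (ψ y)) q w = G.M.td f (ψ q) (fderiv ℝ (G.M.x ∘ ψ) q w) := by
  rw [(hasF_map (hf.diffAt _) h.cont.self_of_nhds (h.sm.of_le one_le_two)).fderiv]; rfl

/-- first derivatives -/
theorem fd (f : G.SmC) (w : ℝ × ℝ) : fderiv ℝ (fun y => f.1 (ψ y)) q w =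
    ∑ a, cx (fderiv ℝ (G.M.x ∘ ψ) q w) a * (G.SC.D a f).1 (ψ q) := by
  rw [h.fd' f.2, td_eq]; rfl

/-- second derivatives -/
theorem fd2 (f : G.SmC) (w' w : ℝ × ℝ) :
    fderiv ℝ (fun z => fderiv ℝ (fun y => f.1 (ψ y)) z w) q w' =
      ∑ a, ∑ b, cx (fderiv ℝ (G.M.x ∘ ψ) q w') a * cx (fderiv ℝ (G.M.x ∘ ψ) q w) b *
        (G.SC.D a (G.SC.D b f)).1 (ψ q) +
      ∑ b, cx (fderiv ℝ (fun z => fderiv ℝ (G.M.x ∘ ψ) z w) q w') b * (G.SC.D b f).1 (ψ q) := by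
  have e : (fun z => fderiv ℝ (fun y => f.1 (ψ y)) z w) =ᶠ[𝓝 q] fun z =>
      ∑ b, cx (fderiv ℝ (G.M.x ∘ ψ) z w) b * (G.SC.D b f).1 (ψ z) :=
    h.ev.mono fun z hz => hz.fd f w
  have h1 : ∀ b, HasFDerivAt (fun z => cx (fderiv ℝ (G.M.x ∘ ψ) z w) b) _ q := fun b =>
    (Complex.ofRealCLM.comp (EuclideanSpace.proj b)).hasFDerivAt.comp q (diff_fd h.sm w).hasFDerivAt
  have h2 : ∀ b, HasFDerivAt (fun z => (G.SC.D b f).1 (ψ z)) _ q := fun b =>
    ((h.cd (G.SC.D b f).2).differentiableAt (by simp)).hasFDerivAt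
  rw [e.fderiv_eq, (HasFDerivAt.fun_sum fun b _ => (h1 b).fun_mul (h2 b)).fderiv, Finset.sum_comm,
    ← Finset.sum_add_distrib, sum_apply]
  refine Finset.sum_congr rfl fun b _ => ?_
  simp only [add_apply, smul_apply, h.fd, smul_eq_mul,
    Finset.mul_sum]
  congr 1
  · exact Finset.sum_congr rfl fun a _ => by ring
  · exact mul_comm _ _

theorem n_fd (w : ℝ × ℝ) : dot (nC G (ψ q)) (cx (fderiv ℝ (G.M.x ∘ ψ) q w)) = 0 := by
  have e : fderiv ℝ (G.M.x ∘ ψ) q w = G.M.PL (ψ q) (fderiv ℝ (G.M.x ∘ ψ) q w) := h.fd' G.M.sm_x w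
  change dot (cx (nv G (ψ q))) _ = 0
  rw [dot_cx, e, ← Imm.PL_symm, PL_nv, inner_zero_left, Complex.ofReal_zero]

theorem tp : Tp (nC G (ψ q)) (cx (d1 (G.M.x ∘ ψ) q)) (cx (d2 (G.M.x ∘ ψ) q)) :=
  ⟨by simp only [nC]; exact_mod_cast nn (G := G) (ψ q), h.n_fd _, h.n_fd _⟩

theorem sg_sq : sg G ψ q ^ 2 = (det (G.M.x ∘ ψ) q : ℝ) := by
  rw [sg, h.tp.sig_sq, dot_cx, dot_cx, dot_cx, det]
  push_cast
  rfl

variable (Y : Fin 3 → G.SmC)

theorem cd_pb : ContDiffAt ℝ 2 (pb Y ψ) q := contDiffAt_pi.2 fun c => h.cd (Y c).2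

theorem fd_pb (w : ℝ × ℝ) :
    fderiv ℝ (pb Y ψ) q w = cb (cx (fderiv ℝ (G.M.x ∘ ψ) q w)) (JC Y (ψ q)) := by
  funext c
  have e2 := fderiv_apply ((h.cd_pb Y).differentiableAt (by simp)) c
  exact (congrArg (fun T : ℝ × ℝ →L[ℝ] ℂ => T w) e2).symm.trans (h.fd (Y c) w)

theorem fd2_pb (w' w : ℝ × ℝ) (c : Fin 3) :
    fderiv ℝ (fun z => fderiv ℝ (pb Y ψ) z w) q w' c =
      cb2 (KC Y (ψ q)) (cx (fderiv ℝ (G.M.x ∘ ψ) q w')) (cx (fderiv ℝ (G.M.x ∘ ψ) q w)) c +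
        cb (cx (fderiv ℝ (fun z => fderiv ℝ (G.M.x ∘ ψ) z w) q w')) (JC Y (ψ q)) c := by
  have e : (fun z => fderiv ℝ (pb Y ψ) z w c) =ᶠ[𝓝 q]
      fun z => fderiv ℝ (fun y => (Y c).1 (ψ y)) z w :=
    h.ev.mono fun z hz => (congrFun (hz.fd_pb Y w) c).trans (hz.fd (Y c) w).symm
  have e2 := fderiv_apply (diff_fd (h.cd_pb Y) w) c
  have e3 := congrArg (fun T : ℝ × ℝ →L[ℝ] ℂ => T w') (e2.symm.trans e.fderiv_eq)
  exact e3.trans (h.fd2 (Y c) w' w)

/-- the normal -/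
theorem N_eq (c : Fin 3) :
    sg G ψ q * (G.SC.NX Y c).1 (ψ q) = cr (d1 (pb Y ψ) q) (d2 (pb Y ψ) q) c := by
  rw [NX_val, d1, d2, h.fd_pb, h.fd_pb]
  exact h.tp.N_eq (fun c => n_D (Y c) _) c

/-- the area density -/
theorem G_eq : sg G ψ q ^ 2 * (G.SC.GX Y).1 (ψ q) =
    dot (cr (d1 (pb Y ψ) q) (d2 (pb Y ψ) q)) (cr (d1 (pb Y ψ) q) (d2 (pb Y ψ) q)) := by
  rw [GX_val, d1, d2, h.fd_pb, h.fd_pb]
  exact h.tp.G_eq fun c => n_D (Y c) _

/-- the flux -/
theorem W_eq (f : G.SmC) (V : Fin 3 → ℂ) :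
    sg G ψ q ^ 2 * ∑ a, (G.SC.D a f).1 (ψ q) * dot (val (G.SC.WX Y a) (ψ q)) V =
      dot (d2 (pb Y ψ) q) (d2 (pb Y ψ) q) *
          (d1 (fun y => f.1 (ψ y)) q * dot (d1 (pb Y ψ) q) V) -
        dot (d1 (pb Y ψ) q) (d2 (pb Y ψ) q) * (d1 (fun y => f.1 (ψ y)) q * dot (d2 (pb Y ψ) q) V +
          d2 (fun y => f.1 (ψ y)) q * dot (d1 (pb Y ψ) q) V) +
        dot (d1 (pb Y ψ) q) (d1 (pb Y ψ) q) *
          (d2 (fun y => f.1 (ψ y)) q * dot (d2 (pb Y ψ) q) V) := by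
  have e : ∀ a, val (G.SC.WX Y a) (ψ q) = Wv (JC Y (ψ q)) a := fun a => funext (WX_val Y _ a)
  simp only [e, d1, d2, h.fd_pb, h.fd]
  exact h.tp.W_eq (fun c => n_D (Y c) _) (n_D f _) V


/-- the Euler–Lagrange expression -/
theorem EL_eq : sg G ψ q ^ 3 * (G.SC.ELX Y).1 (ψ q) = ELc (pb Y ψ q) (d1 (pb Y ψ) q)
    (d2 (pb Y ψ) q) (d1 (d1 (pb Y ψ)) q) (d1 (d2 (pb Y ψ)) q) (d2 (d1 (pb Y ψ)) q)
    (d2 (d2 (pb Y ψ)) q) := by
  rw [ELX_val, show d1 (pb Y ψ) q = _ from h.fd_pb Y _, show d2 (pb Y ψ) q = _ from h.fd_pb Y _]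
  exact h.tp.EL_eq (fun c => n_D (Y c) _) (fun b c => n_D (G.SC.D b (Y c)) _)
    (h.fd2_pb Y _ _) (h.fd2_pb Y _ _) (h.fd2_pb Y _ _) (h.fd2_pb Y _ _) _

end Pm

end Crest.Agent.N250.Cj

end
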